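import Vale.Agent.P151.QP.Defs

/-!
# (TC) The three-point inequality

`P(D) P(z al) ≤ 11 P(D, z al)`, where `D = {x al, y al, x not joined to y}` and
`v al = {n ≤ |K_v|}`.  One induction over the edges at the cluster of `z`, with two vertex sets
`A` (avoided by `K_x`) and `B` (avoided by `K_y`).
-/

set_option autoImplicit false
set_option linter.unusedSectionVars false

open Finset SimpleGraph

namespace Vale.Agent.P151.TC.H614

open Vale.Agent.P151 Vale.Agent.P151.QP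

variable {V : Type*} [DecidableEq V]

/-- `x`, `y` are alive and in distinct clusters. -/
def DP (n : ℕ) (x y : V) (S : Finset (Sym2 V)) : Prop :=
  ¬ Cn S x y ∧ n ≤ csz S x ∧ n ≤ csz S y

/-- Moreover `z` is in neither cluster. -/
def RP (n : ℕ) (x y z : V) (S : Finset (Sym2 V)) : Prop :=
  DP n x y S ∧ ¬ Cn S x z ∧ ¬ Cn S y z

/-- The cluster of `y` avoids `B`. -/
def Av (B : Finset V) (y : V) (S : Finset (Sym2 V)) : Prop := ∀ b ∈ B, ¬ Cn S y b

/-- Expectation over the unrevealed edges, the edges of `S0` being open. -/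
noncomputable def E0 (p : ℝ) (S0 Λ : Finset (Sym2 V)) (f : Finset (Sym2 V) → ℝ) : ℝ :=
  Ex p Λ (fun S => f (S0 ∪ S))

noncomputable def gg (n : ℕ) (x y z : V) (A B : Finset V) (S : Finset (Sym2 V)) : ℝ :=
  I1 (RP n x y z S ∧ Av A x S ∧ Av B y S)

noncomputable def bb (n : ℕ) (x y z : V) (B : Finset V) (S : Finset (Sym2 V)) : ℝ :=
  I1 (DP n x y S ∧ Cn S x z ∧ Av B y S)

noncomputable def rr (n : ℕ) (x y z : V) (B : Finset V) (S : Finset (Sym2 V)) : ℝ :=
  I1 (RP n x y z S ∧ Av B y S)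

noncomputable def ll (n : ℕ) (z : V) (S : Finset (Sym2 V)) : ℝ := I1 (n ≤ csz S z)

noncomputable def jj (v u : V) (S : Finset (Sym2 V)) : ℝ := I1 (Cn S v u)

/-! ### Expectations -/

lemma E0_mono {p : ℝ} (h0 : 0 ≤ p) (h1 : p ≤ 1) {S0 Λ : Finset (Sym2 V)}
    {f g : Finset (Sym2 V) → ℝ} (h : ∀ S, S0 ⊆ S → f S ≤ g S) : E0 p S0 Λ f ≤ E0 p S0 Λ g :=
  Ex_mono h0 h1 fun _ _ => h _ Finset.subset_union_left

lemma E0_nonneg {p : ℝ} (h0 : 0 ≤ p) (h1 : p ≤ 1) {S0 Λ : Finset (Sym2 V)}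
    {f : Finset (Sym2 V) → ℝ} (h : ∀ S, S0 ⊆ S → 0 ≤ f S) : 0 ≤ E0 p S0 Λ f :=
  Ex_nonneg h0 h1 fun _ _ => h _ Finset.subset_union_left

lemma E0_congr {p : ℝ} {S0 Λ : Finset (Sym2 V)} {f g : Finset (Sym2 V) → ℝ}
    (h : ∀ S, S0 ⊆ S → f S = g S) : E0 p S0 Λ f = E0 p S0 Λ g :=
  Ex_congr p fun _ _ => h _ Finset.subset_union_left

lemma E0_add (p : ℝ) (S0 Λ : Finset (Sym2 V)) (f g : Finset (Sym2 V) → ℝ) :
    E0 p S0 Λ (fun S => f S + g S) = E0 p S0 Λ f + E0 p S0 Λ g := Ex_add _ _ _ _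

lemma E0_sub (p : ℝ) (S0 Λ : Finset (Sym2 V)) (f g : Finset (Sym2 V) → ℝ) :
    E0 p S0 Λ (fun S => f S - g S) = E0 p S0 Λ f - E0 p S0 Λ g := Ex_sub _ _ _ _

lemma E0_step (p : ℝ) {e : Sym2 V} {S0 Λ : Finset (Sym2 V)} (he : e ∉ Λ)
    (f : Finset (Sym2 V) → ℝ) :
    E0 p S0 (insert e Λ) f = p * E0 p (insert e S0) Λ f + (1 - p) * E0 p S0 Λ f := by
  unfold E0
  rw [Ex_insert p he]
  congr 2
  apply Ex_congr
  intro S _
  rw [Finset.union_insert, Finset.insert_union]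

lemma E0_open (p : ℝ) (e : Sym2 V) (S0 Λ : Finset (Sym2 V)) (f : Finset (Sym2 V) → ℝ) :
    E0 p (insert e S0) Λ f = E0 p S0 Λ (fun S => f (insert e S)) := by
  unfold E0
  apply Ex_congr
  intro S _
  rw [Finset.insert_union]

/-! ### Opening an edge at the cluster of `z` -/

section Edge

variable {S : Finset (Sym2 V)} {z c u : V}

lemma Cn_z (hc : Cn S z c) : Cn (insert s(c, u) S) z u := by
  rw [Cn_insert]
  exact Or.inr (Or.inl ⟨hc, Cn.refl S u⟩)

/-- If `v` is not joined to `z` after opening, then nothing changes for `v`. -/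
lemma Cn_same (hc : Cn S z c) {v : V} (h1 : ¬ Cn S v z) (h2 : ¬ Cn S v u) (w : V) :
    Cn (insert s(c, u) S) v w ↔ Cn S v w := by
  rw [Cn_insert]
  constructor
  · rintro (h | ⟨h, _⟩ | ⟨h, _⟩)
    · exact h
    · exact absurd (h.trans hc.symm) h1
    · exact absurd h h2
  · exact Or.inl

lemma cl_same (hc : Cn S z c) {v : V} (h1 : ¬ Cn S v z) (h2 : ¬ Cn S v u) :
    cl (insert s(c, u) S) v = cl S v := by
  ext w
  rw [mem_cl, mem_cl]
  exact Cn_same hc h1 h2 w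

lemma csz_same (hc : Cn S z c) {v : V} (h1 : ¬ Cn S v z) (h2 : ¬ Cn S v u) :
    csz (insert s(c, u) S) v = csz S v := by
  unfold csz
  rw [cl_same hc h1 h2]

lemma not_of_open (hc : Cn S z c) {v : V} (h : ¬ Cn (insert s(c, u) S) v z) :
    ¬ Cn S v z ∧ ¬ Cn S v u := by
  constructor
  · intro h'
    exact h (h'.mono (Finset.subset_insert _ _))
  · intro h'
    exact h ((h'.mono (Finset.subset_insert _ _)).trans (Cn_z hc).symm)

lemma Av_same (hc : Cn S z c) {v : V} (h1 : ¬ Cn S v z) (h2 : ¬ Cn S v u) (B : Finset V) :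
    Av B v (insert s(c, u) S) ↔ Av B v S := by
  unfold Av
  constructor
  · intro h b hb hh
    exact h b hb ((Cn_same hc h1 h2 b).2 hh)
  · intro h b hb hh
    exact h b hb ((Cn_same hc h1 h2 b).1 hh)

/-- `g` after opening. -/
lemma g_open (hc : Cn S z c) (n : ℕ) (x y : V) (A B : Finset V) :
    (RP n x y z (insert s(c, u) S) ∧ Av A x (insert s(c, u) S) ∧ Av B y (insert s(c, u) S)) ↔
    ((RP n x y z S ∧ Av A x S ∧ Av B y S) ∧ ¬ Cn S x u ∧ ¬ Cn S y u) := by
  constructor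
  · rintro ⟨⟨⟨h1, h2, h3⟩, h4, h5⟩, h6, h7⟩
    obtain ⟨a1, a2⟩ := not_of_open hc h4
    obtain ⟨b1, b2⟩ := not_of_open hc h5
    rw [Cn_same hc a1 a2] at h1
    rw [csz_same hc a1 a2] at h2
    rw [csz_same hc b1 b2] at h3
    rw [Av_same hc a1 a2] at h6
    rw [Av_same hc b1 b2] at h7
    exact ⟨⟨⟨⟨h1, h2, h3⟩, a1, b1⟩, h6, h7⟩, a2, b2⟩
  · rintro ⟨⟨⟨⟨h1, h2, h3⟩, a1, b1⟩, h6, h7⟩, a2, b2⟩
    refine ⟨⟨⟨?_, ?_, ?_⟩, ?_, ?_⟩, ?_, ?_⟩
    · rwa [Cn_same hc a1 a2]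
    · rwa [csz_same hc a1 a2]
    · rwa [csz_same hc b1 b2]
    · rwa [Cn_same hc a1 a2]
    · rwa [Cn_same hc b1 b2]
    · rwa [Av_same hc a1 a2]
    · rwa [Av_same hc b1 b2]

/-- `b` after opening, from below. -/
lemma b_open (hc : Cn S z c) (n : ℕ) (x y : V) (B : Finset V)
    (h : (DP n x y S ∧ Cn S x z ∧ Av B y S) ∧ ¬ Cn S y u ∨
      (RP n x y z S ∧ Av B y S) ∧ Cn S x u) :
    DP n x y (insert s(c, u) S) ∧ Cn (insert s(c, u) S) x z ∧ Av B y (insert s(c, u) S) := by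
  have hsub : S ⊆ insert s(c, u) S := Finset.subset_insert _ _
  rcases h with ⟨⟨⟨h1, h2, h3⟩, h4, h5⟩, h6⟩ | ⟨⟨⟨⟨h1, h2, h3⟩, h4, h5⟩, h6⟩, h7⟩
  · have hyz : ¬ Cn S y z := fun h => h1 (h4.trans h.symm)
    refine ⟨⟨?_, h2.trans (csz_mono hsub x), ?_⟩, h4.mono hsub, ?_⟩
    · intro h
      exact h1 ((Cn_same hc hyz h6 x).1 h.symm).symm
    · rwa [csz_same hc hyz h6]
    · rwa [Av_same hc hyz h6]
  · have hyu : ¬ Cn S y u := fun h => h1 (h7.trans h.symm)
    refine ⟨⟨?_, h2.trans (csz_mono hsub x), ?_⟩, ?_, ?_⟩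
    · intro h
      exact h1 ((Cn_same hc h5 hyu x).1 h.symm).symm
    · rwa [csz_same hc h5 hyu]
    · exact (h7.mono hsub).trans (Cn_z hc).symm
    · rwa [Av_same hc h5 hyu]

end Edge

/-! ### The pieces of the potential -/

noncomputable def wx (n : ℕ) (x y z : V) (B : Finset V) (u : V) (S : Finset (Sym2 V)) : ℝ :=
  I1 ((RP n x y z S ∧ Av B y S) ∧ Cn S x u)

noncomputable def b1 (n : ℕ) (x y z : V) (B : Finset V) (u : V) (S : Finset (Sym2 V)) : ℝ :=
  I1 ((DP n x y S ∧ Cn S x z ∧ Av B y S) ∧ Cn S y u)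

noncomputable def r1 (n : ℕ) (x y z : V) (B : Finset V) (u : V) (S : Finset (Sym2 V)) : ℝ :=
  I1 ((RP n x y z S ∧ Av B y S) ∧ Cn S y u)

lemma DP_symm {n : ℕ} {x y : V} {S : Finset (Sym2 V)} : DP n x y S ↔ DP n y x S := by
  unfold DP
  constructor
  · rintro ⟨h1, h2, h3⟩
    exact ⟨fun h => h1 h.symm, h3, h2⟩
  · rintro ⟨h1, h2, h3⟩
    exact ⟨fun h => h1 h.symm, h3, h2⟩

lemma RP_symm {n : ℕ} {x y z : V} {S : Finset (Sym2 V)} : RP n x y z S ↔ RP n y x z S := by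
  unfold RP
  rw [DP_symm, and_comm (a := ¬ Cn S x z)]

lemma gg_symm (n : ℕ) (x y z : V) (A B : Finset V) (S : Finset (Sym2 V)) :
    gg n x y z A B S = gg n y x z B A S := by
  unfold gg
  rw [RP_symm, and_comm (a := Av A x S)]

section Pointwise

variable {S : Finset (Sym2 V)} {z c u : V}

/-- `g` drops by the part where `u` is in one of the two clusters. -/
lemma gg_open (hc : Cn S z c) (n : ℕ) (x y : V) (A B : Finset V) :
    gg n x y z A B S ≤
      gg n x y z A B (insert s(c, u) S) + wx n x y z B u S + wx n y x z A u S := by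
  unfold gg wx
  by_cases h : RP n x y z S ∧ Av A x S ∧ Av B y S
  · rw [I1_true h]
    by_cases hx : Cn S x u
    · rw [I1_true (P := (RP n x y z S ∧ Av B y S) ∧ Cn S x u) ⟨⟨h.1, h.2.2⟩, hx⟩]
      have := I1_nonneg (RP n x y z (insert s(c, u) S) ∧ Av A x (insert s(c, u) S) ∧
        Av B y (insert s(c, u) S))
      have := I1_nonneg ((RP n y x z S ∧ Av A x S) ∧ Cn S y u)
      linarith
    · by_cases hy : Cn S y u
      · rw [I1_true (P := (RP n y x z S ∧ Av A x S) ∧ Cn S y u) ⟨⟨RP_symm.1 h.1, h.2.1⟩, hy⟩]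
        have := I1_nonneg (RP n x y z (insert s(c, u) S) ∧ Av A x (insert s(c, u) S) ∧
          Av B y (insert s(c, u) S))
        have := I1_nonneg ((RP n x y z S ∧ Av B y S) ∧ Cn S x u)
        linarith
      · rw [I1_true (P := RP n x y z (insert s(c, u) S) ∧ Av A x (insert s(c, u) S) ∧
          Av B y (insert s(c, u) S)) ((g_open hc n x y A B).2 ⟨h, hx, hy⟩)]
        have := I1_nonneg ((RP n y x z S ∧ Av A x S) ∧ Cn S y u)
        have := I1_nonneg ((RP n x y z S ∧ Av B y S) ∧ Cn S x u)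
        linarith
  · rw [I1_false h]
    have := I1_nonneg (RP n x y z (insert s(c, u) S) ∧ Av A x (insert s(c, u) S) ∧
        Av B y (insert s(c, u) S))
    have := I1_nonneg ((RP n x y z S ∧ Av B y S) ∧ Cn S x u)
    have := I1_nonneg ((RP n y x z S ∧ Av A x S) ∧ Cn S y u)
    linarith

/-- The configurations in `g` with `u` in one of the clusters. -/
noncomputable def ww (n : ℕ) (x y z : V) (A B : Finset V) (u : V) (S : Finset (Sym2 V)) : ℝ :=
  I1 ((RP n x y z S ∧ Av A x S ∧ Av B y S) ∧ (Cn S x u ∨ Cn S y u))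

lemma gg_open_eq (hc : Cn S z c) (n : ℕ) (x y : V) (A B : Finset V) :
    gg n x y z A B (insert s(c, u) S) = gg n x y z A B S - ww n x y z A B u S := by
  unfold gg ww
  by_cases h : RP n x y z S ∧ Av A x S ∧ Av B y S
  · rw [I1_true h]
    by_cases hx : Cn S x u ∨ Cn S y u
    · rw [I1_true (P := (RP n x y z S ∧ Av A x S ∧ Av B y S) ∧ (Cn S x u ∨ Cn S y u)) ⟨h, hx⟩,
        I1_false]
      · norm_num
      · intro h'
        obtain ⟨_, h2, h3⟩ := (g_open hc n x y A B).1 h'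
        rcases hx with hx | hx
        · exact h2 hx
        · exact h3 hx
    · rw [I1_false (P := (RP n x y z S ∧ Av A x S ∧ Av B y S) ∧ (Cn S x u ∨ Cn S y u))
        (fun h' => hx h'.2), I1_true]
      · norm_num
      · push Not at hx
        exact (g_open hc n x y A B).2 ⟨h, hx.1, hx.2⟩
  · rw [I1_false h, I1_false (P := (RP n x y z S ∧ Av A x S ∧ Av B y S) ∧ (Cn S x u ∨ Cn S y u))
        (fun h' => h h'.1), I1_false]
    · norm_num
    · intro h'
      exact h ((g_open hc n x y A B).1 h').1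

lemma ww_le (n : ℕ) (x y : V) (A B : Finset V) :
    ww n x y z A B u S ≤ wx n x y z B u S + wx n y x z A u S := by
  unfold ww wx
  by_cases h : (RP n x y z S ∧ Av A x S ∧ Av B y S) ∧ (Cn S x u ∨ Cn S y u)
  · rw [I1_true h]
    obtain ⟨⟨h1, h2, h3⟩, hx | hy⟩ := h
    · rw [I1_true (P := (RP n x y z S ∧ Av B y S) ∧ Cn S x u) ⟨⟨h1, h3⟩, hx⟩]
      have := I1_nonneg ((RP n y x z S ∧ Av A x S) ∧ Cn S y u)
      linarith
    · rw [I1_true (P := (RP n y x z S ∧ Av A x S) ∧ Cn S y u) ⟨⟨RP_symm.1 h1, h2⟩, hy⟩]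
      have := I1_nonneg ((RP n x y z S ∧ Av B y S) ∧ Cn S x u)
      linarith
  · rw [I1_false h]
    have := I1_nonneg ((RP n x y z S ∧ Av B y S) ∧ Cn S x u)
    have := I1_nonneg ((RP n y x z S ∧ Av A x S) ∧ Cn S y u)
    linarith

lemma bb_open (hc : Cn S z c) (n : ℕ) (x y : V) (B : Finset V) :
    bb n x y z B S - b1 n x y z B u S + wx n x y z B u S ≤
      bb n x y z B (insert s(c, u) S) := by
  unfold bb b1 wx
  by_cases h : DP n x y S ∧ Cn S x z ∧ Av B y S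
  · rw [I1_true h, I1_false (P := (RP n x y z S ∧ Av B y S) ∧ Cn S x u)
      (fun h' => h'.1.1.2.1 h.2.1)]
    by_cases hy : Cn S y u
    · rw [I1_true (P := (DP n x y S ∧ Cn S x z ∧ Av B y S) ∧ Cn S y u) ⟨h, hy⟩]
      have := I1_nonneg (DP n x y (insert s(c, u) S) ∧ Cn (insert s(c, u) S) x z ∧
        Av B y (insert s(c, u) S))
      linarith
    · rw [I1_true (P := DP n x y (insert s(c, u) S) ∧ Cn (insert s(c, u) S) x z ∧
        Av B y (insert s(c, u) S)) (b_open hc n x y B (Or.inl ⟨h, hy⟩))]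
      have := I1_nonneg ((DP n x y S ∧ Cn S x z ∧ Av B y S) ∧ Cn S y u)
      linarith
  · rw [I1_false h]
    have h3 := I1_nonneg ((DP n x y S ∧ Cn S x z ∧ Av B y S) ∧ Cn S y u)
    by_cases hr : (RP n x y z S ∧ Av B y S) ∧ Cn S x u
    · rw [I1_true hr, I1_true (P := DP n x y (insert s(c, u) S) ∧ Cn (insert s(c, u) S) x z ∧
        Av B y (insert s(c, u) S)) (b_open hc n x y B (Or.inr hr))]
      linarith
    · rw [I1_false hr]
      have := I1_nonneg (DP n x y (insert s(c, u) S) ∧ Cn (insert s(c, u) S) x z ∧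
        Av B y (insert s(c, u) S))
      linarith

lemma rr_open (hc : Cn S z c) (n : ℕ) (x y : V) (B : Finset V) :
    rr n x y z B (insert s(c, u) S) ≤
      rr n x y z B S - r1 n x y z B u S - wx n x y z B u S := by
  have e1 : ∀ T : Finset (Sym2 V), rr n x y z B T = gg n x y z ∅ B T := by
    intro T
    unfold rr gg Av
    simp
  rw [e1, e1, gg_open_eq hc]
  have e2 : ww n x y z ∅ B u S = r1 n x y z B u S + wx n x y z B u S := by
    unfold ww r1 wx
    by_cases h : RP n x y z S ∧ Av B y S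
    · have hA : Av (∅ : Finset V) x S := by intro a ha; simp at ha
      by_cases hx : Cn S x u
      · have hy : ¬ Cn S y u := fun hy => h.1.1.1 (hx.trans hy.symm)
        rw [I1_true (P := (RP n x y z S ∧ Av ∅ x S ∧ Av B y S) ∧ (Cn S x u ∨ Cn S y u))
          ⟨⟨h.1, hA, h.2⟩, Or.inl hx⟩, I1_true (P := (RP n x y z S ∧ Av B y S) ∧ Cn S x u)
          ⟨h, hx⟩, I1_false (fun h' => hy h'.2)]
        norm_num
      · by_cases hy : Cn S y u
        · rw [I1_true (P := (RP n x y z S ∧ Av ∅ x S ∧ Av B y S) ∧ (Cn S x u ∨ Cn S y u))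
            ⟨⟨h.1, hA, h.2⟩, Or.inr hy⟩, I1_true (P := (RP n x y z S ∧ Av B y S) ∧ Cn S y u)
            ⟨h, hy⟩, I1_false (fun h' => hx h'.2)]
          norm_num
        · rw [I1_false (P := (RP n x y z S ∧ Av ∅ x S ∧ Av B y S) ∧ (Cn S x u ∨ Cn S y u))
            (fun h' => h'.2.elim hx hy), I1_false (P := (RP n x y z S ∧ Av B y S) ∧ Cn S y u)
            (fun h' => hy h'.2), I1_false (fun h' => hx h'.2)]
          norm_num
    · rw [I1_false (P := (RP n x y z S ∧ Av ∅ x S ∧ Av B y S) ∧ (Cn S x u ∨ Cn S y u))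
            (fun h' => h ⟨h'.1.1, h'.1.2.2⟩), I1_false (P := (RP n x y z S ∧ Av B y S) ∧ Cn S y u)
            (fun h' => h h'.1), I1_false (fun h' => h h'.1)]
      norm_num
  rw [e2]
  linarith

lemma b1_open (hc : Cn S z c) (n : ℕ) (x y : V) (B : Finset V) :
    b1 n x y z B u (insert s(c, u) S) = 0 := by
  unfold b1
  apply I1_false
  rintro ⟨⟨⟨h1, _, _⟩, h2, _⟩, h3⟩
  exact h1 (h2.trans ((Cn_z hc).trans h3.symm))

lemma r1_open (hc : Cn S z c) (n : ℕ) (x y : V) (B : Finset V) :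
    r1 n x y z B u (insert s(c, u) S) = 0 := by
  unfold r1
  apply I1_false
  rintro ⟨⟨⟨_, _, h2⟩, _⟩, h3⟩
  exact h2 (h3.trans (Cn_z hc).symm)

end Pointwise

/-! ### Real inequalities -/

lemma real_psi {p Bo Bc Ro Rc b r w lo lc : ℝ} (h0 : 0 ≤ p) (h1 : p ≤ 1) (hl : lc ≤ lo)
    (hw : 0 ≤ w) (hB : Bc - b + w ≤ Bo) (hR : Ro ≤ Rc - r - w) (hs : (1 - p) * b ≤ (1 - p) * r / 4) :
    p * (Bo * (5 - lo) + Ro * lo / 4) + (1 - p) * (Bc * (5 - lc) + Rc * lc / 4) +
      p * (1 - p) * (lo - lc) * w ≤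
    (p * Bo + (1 - p) * Bc) * (5 - (p * lo + (1 - p) * lc)) +
      (p * Ro + (1 - p) * Rc) * (p * lo + (1 - p) * lc) / 4 := by
  have hp : 0 ≤ 1 - p := by linarith
  have key : 0 ≤ (1 - p) * ((Bo - Bc) - (Ro - Rc) / 4 - w) := by
    have e1 : (1 - p) * (Bc - b + w) ≤ (1 - p) * Bo := mul_le_mul_of_nonneg_left hB hp
    have e2 : (1 - p) * Ro ≤ (1 - p) * (Rc - r - w) := mul_le_mul_of_nonneg_left hR hp
    have e3 : 0 ≤ (1 - p) * w := mul_nonneg hp hw
    nlinarith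
  have key2 : 0 ≤ (p * (lo - lc)) * ((1 - p) * ((Bo - Bc) - (Ro - Rc) / 4 - w)) :=
    mul_nonneg (mul_nonneg h0 (by linarith)) key
  nlinarith

lemma real_step {p Go Gc W wX wY lo lc Xo Xc PBo PBc PAo PAc PB PA : ℝ} (h0 : 0 ≤ p) (h1 : p ≤ 1)
    (hl : lc ≤ lo) (hG : Go = Gc - W) (hW : W ≤ wX + wY)
    (ho : Go * lo ≤ Xo + PBo + PAo) (hc : Gc * lc ≤ Xc + PBc + PAc)
    (hPB : p * PBo + (1 - p) * PBc + p * (1 - p) * (lo - lc) * wX ≤ PB)
    (hPA : p * PAo + (1 - p) * PAc + p * (1 - p) * (lo - lc) * wY ≤ PA) :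
    (p * Go + (1 - p) * Gc) * (p * lo + (1 - p) * lc) ≤ (p * Xo + (1 - p) * Xc) + PB + PA := by
  have hp : 0 ≤ 1 - p := by linarith
  have e1 := mul_le_mul_of_nonneg_left ho h0
  have e2 := mul_le_mul_of_nonneg_left hc hp
  have e3 : p * (1 - p) * (lo - lc) * W ≤ p * (1 - p) * (lo - lc) * (wX + wY) :=
    mul_le_mul_of_nonneg_left hW (mul_nonneg (mul_nonneg h0 hp) (by linarith))
  have e4 : (p * Go + (1 - p) * Gc) * (p * lo + (1 - p) * lc) =
      p * (Go * lo) + (1 - p) * (Gc * lc) + p * (1 - p) * (lo - lc) * W := by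
    rw [hG]; ring
  rw [e4]
  linarith

/-! ### The claim -/

noncomputable def Psi (p : ℝ) (S0 Λ : Finset (Sym2 V)) (n : ℕ) (x y z : V) (B : Finset V) : ℝ :=
  E0 p S0 Λ (bb n x y z B) * (5 - E0 p S0 Λ (ll n z)) +
    E0 p S0 Λ (rr n x y z B) * E0 p S0 Λ (ll n z) / 4

def Claim (p : ℝ) (S0 Λ : Finset (Sym2 V)) (n : ℕ) (x y z : V) (A B : Finset V) : Prop :=
  E0 p S0 Λ (gg n x y z A B) * E0 p S0 Λ (ll n z) ≤
    E0 p S0 Λ (fun S => gg n x y z A B S * ll n z S) + Psi p S0 Λ n x y z B +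
      Psi p S0 Λ n y x z A

lemma Claim_symm {p : ℝ} {S0 Λ : Finset (Sym2 V)} {n : ℕ} {x y z : V} {A B : Finset V}
    (h : Claim p S0 Λ n y x z B A) : Claim p S0 Λ n x y z A B := by
  unfold Claim at h ⊢
  have e1 : gg n x y z A B = gg n y x z B A := by
    funext S; exact gg_symm n x y z A B S
  rw [e1]
  linarith

lemma ll_nonneg (n : ℕ) (z : V) (S : Finset (Sym2 V)) : 0 ≤ ll n z S := I1_nonneg _
lemma ll_le_one (n : ℕ) (z : V) (S : Finset (Sym2 V)) : ll n z S ≤ 1 := I1_le_one _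

lemma E_ll_nonneg {p : ℝ} (h0 : 0 ≤ p) (h1 : p ≤ 1) (S0 Λ : Finset (Sym2 V)) (n : ℕ) (z : V) :
    0 ≤ E0 p S0 Λ (ll n z) := E0_nonneg h0 h1 fun S _ => ll_nonneg n z S

lemma E_ll_le_one {p : ℝ} (h0 : 0 ≤ p) (h1 : p ≤ 1) (S0 Λ : Finset (Sym2 V)) (n : ℕ) (z : V) :
    E0 p S0 Λ (ll n z) ≤ 1 := Ex_le_const h0 h1 fun S _ => ll_le_one n z _

/-- The group-wise stopping. -/
lemma stop_B {p : ℝ} (h0 : 0 ≤ p) (h1 : p ≤ 1) {S0 Λ : Finset (Sym2 V)} {n : ℕ} {x y z u : V}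
    {A B : Finset V}
    (hst : E0 p S0 Λ (r1 n x y z B u) / 4 ≤ E0 p S0 Λ (b1 n x y z B u))
    (h : Claim p S0 Λ n x y z A (insert u B)) : Claim p S0 Λ n x y z A B := by
  unfold Claim Psi at h ⊢
  have hl0 := E_ll_nonneg h0 h1 S0 Λ n z
  have hl1 := E_ll_le_one h0 h1 S0 Λ n z
  have hins : ∀ S : Finset (Sym2 V), Av (insert u B) y S ↔ Av B y S ∧ ¬ Cn S y u := by
    intro S
    unfold Av
    constructor
    · intro h
      exact ⟨fun b hb => h b (Finset.mem_insert_of_mem hb), h u (Finset.mem_insert_self _ _)⟩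
    · rintro ⟨h1, h2⟩ b hb
      rcases Finset.mem_insert.1 hb with rfl | hb
      · exact h2
      · exact h1 b hb
  have e1 : E0 p S0 Λ (bb n x y z B) =
      E0 p S0 Λ (bb n x y z (insert u B)) + E0 p S0 Λ (b1 n x y z B u) := by
    rw [← E0_add]
    apply E0_congr
    intro S _
    unfold bb b1
    rw [hins]
    by_cases hA : DP n x y S ∧ Cn S x z ∧ Av B y S
    · by_cases hu : Cn S y u
      · rw [I1_true hA, I1_true (P := (DP n x y S ∧ Cn S x z ∧ Av B y S) ∧ Cn S y u) ⟨hA, hu⟩,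
          I1_false (fun h => h.2.2.2 hu)]
        norm_num
      · rw [I1_true hA, I1_false (P := (DP n x y S ∧ Cn S x z ∧ Av B y S) ∧ Cn S y u)
          (fun h => hu h.2), I1_true ⟨hA.1, hA.2.1, hA.2.2, hu⟩]
        norm_num
    · rw [I1_false hA, I1_false (P := (DP n x y S ∧ Cn S x z ∧ Av B y S) ∧ Cn S y u)
          (fun h => hA h.1), I1_false (fun h => hA ⟨h.1, h.2.1, h.2.2.1⟩)]
      norm_num
  have e2 : E0 p S0 Λ (rr n x y z B) =
      E0 p S0 Λ (rr n x y z (insert u B)) + E0 p S0 Λ (r1 n x y z B u) := by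
    rw [← E0_add]
    apply E0_congr
    intro S _
    unfold rr r1
    rw [hins]
    by_cases hA : RP n x y z S ∧ Av B y S
    · by_cases hu : Cn S y u
      · rw [I1_true hA, I1_true (P := (RP n x y z S ∧ Av B y S) ∧ Cn S y u) ⟨hA, hu⟩,
          I1_false (fun h => h.2.2 hu)]
        norm_num
      · rw [I1_true hA, I1_false (P := (RP n x y z S ∧ Av B y S) ∧ Cn S y u)
          (fun h => hu h.2), I1_true ⟨hA.1, hA.2, hu⟩]
        norm_num
    · rw [I1_false hA, I1_false (P := (RP n x y z S ∧ Av B y S) ∧ Cn S y u)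
          (fun h => hA h.1), I1_false (fun h => hA ⟨h.1, h.2.1⟩)]
      norm_num
  have e3 : E0 p S0 Λ (gg n x y z A B) ≤
      E0 p S0 Λ (gg n x y z A (insert u B)) + E0 p S0 Λ (r1 n x y z B u) := by
    rw [← E0_add]
    apply E0_mono h0 h1
    intro S _
    unfold gg r1
    rw [hins]
    by_cases hA : RP n x y z S ∧ Av A x S ∧ Av B y S
    · by_cases hu : Cn S y u
      · rw [I1_true hA, I1_true (P := (RP n x y z S ∧ Av B y S) ∧ Cn S y u)
          ⟨⟨hA.1, hA.2.2⟩, hu⟩]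
        have := I1_nonneg (RP n x y z S ∧ Av A x S ∧ Av B y S ∧ ¬ Cn S y u)
        linarith
      · rw [I1_true hA, I1_true (P := RP n x y z S ∧ Av A x S ∧ Av B y S ∧ ¬ Cn S y u)
          ⟨hA.1, hA.2.1, hA.2.2, hu⟩]
        have := I1_nonneg ((RP n x y z S ∧ Av B y S) ∧ Cn S y u)
        linarith
    · rw [I1_false hA]
      have := I1_nonneg (RP n x y z S ∧ Av A x S ∧ Av B y S ∧ ¬ Cn S y u)
      have := I1_nonneg ((RP n x y z S ∧ Av B y S) ∧ Cn S y u)
      linarith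
  have e4 : E0 p S0 Λ (fun S => gg n x y z A (insert u B) S * ll n z S) ≤
      E0 p S0 Λ (fun S => gg n x y z A B S * ll n z S) := by
    apply E0_mono h0 h1
    intro S _
    apply mul_le_mul_of_nonneg_right _ (ll_nonneg n z S)
    unfold gg
    rw [hins]
    exact I1_mono fun h => ⟨h.1, h.2.1, h.2.2.1⟩
  have e5 : 0 ≤ E0 p S0 Λ (b1 n x y z B u) := E0_nonneg h0 h1 fun S _ => I1_nonneg _
  have e6 : 0 ≤ E0 p S0 Λ (r1 n x y z B u) := E0_nonneg h0 h1 fun S _ => I1_nonneg _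
  rw [e1, e2]
  set l := E0 p S0 Λ (ll n z) with hl
  set bq := E0 p S0 Λ (b1 n x y z B u) with hbq
  set rq := E0 p S0 Λ (r1 n x y z B u) with hrq
  have e7 : E0 p S0 Λ (gg n x y z A B) * l ≤
      E0 p S0 Λ (gg n x y z A (insert u B)) * l + rq * l := by
    rw [← add_mul]
    exact mul_le_mul_of_nonneg_right e3 hl0
  have e8 : rq * l ≤ bq * (5 - l) := by
    have : rq * l ≤ 4 * bq * l := mul_le_mul_of_nonneg_right (by linarith) hl0
    nlinarith
  have e9 : 0 ≤ rq * l := mul_nonneg e6 hl0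
  nlinarith

/-- One step of the exploration. -/
lemma step {p : ℝ} (h0 : 0 ≤ p) (h1 : p ≤ 1) {S0 Λ : Finset (Sym2 V)} {n : ℕ} {x y z c u : V}
    {A B : Finset V} (he : s(c, u) ∉ Λ) (hc : Cn S0 z c)
    (hB : E0 p S0 (insert s(c, u) Λ) (b1 n x y z B u) ≤
      E0 p S0 (insert s(c, u) Λ) (r1 n x y z B u) / 4)
    (hA : E0 p S0 (insert s(c, u) Λ) (b1 n y x z A u) ≤
      E0 p S0 (insert s(c, u) Λ) (r1 n y x z A u) / 4)
    (ho : Claim p (insert s(c, u) S0) Λ n x y z A B) (hcl : Claim p S0 Λ n x y z A B) :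
    Claim p S0 (insert s(c, u) Λ) n x y z A B := by
  have hl : E0 p S0 Λ (ll n z) ≤ E0 p (insert s(c, u) S0) Λ (ll n z) := by
    rw [E0_open]
    apply E0_mono h0 h1
    intro S _
    exact I1_mono fun h => h.trans (csz_mono (Finset.subset_insert _ _) z)
  have hpsi : ∀ (x y : V) (B : Finset V), E0 p S0 (insert s(c, u) Λ) (b1 n x y z B u) ≤
      E0 p S0 (insert s(c, u) Λ) (r1 n x y z B u) / 4 →
      p * Psi p (insert s(c, u) S0) Λ n x y z B + (1 - p) * Psi p S0 Λ n x y z B +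
        p * (1 - p) * (E0 p (insert s(c, u) S0) Λ (ll n z) - E0 p S0 Λ (ll n z)) *
          E0 p S0 Λ (wx n x y z B u) ≤ Psi p S0 (insert s(c, u) Λ) n x y z B := by
    intro x y B hs
    unfold Psi
    rw [E0_step p he, E0_step p he, E0_step p he]
    rw [E0_step p he, E0_step p he] at hs
    have z1 : E0 p (insert s(c, u) S0) Λ (b1 n x y z B u) = 0 := by
      rw [E0_open]
      unfold E0
      rw [← Ex_const p Λ (0 : ℝ)]
      apply Ex_congr
      intro S _
      exact b1_open (hc.mono Finset.subset_union_left) n x y B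
    have z2 : E0 p (insert s(c, u) S0) Λ (r1 n x y z B u) = 0 := by
      rw [E0_open]
      unfold E0
      rw [← Ex_const p Λ (0 : ℝ)]
      apply Ex_congr
      intro S _
      exact r1_open (hc.mono Finset.subset_union_left) n x y B
    rw [z1, z2] at hs
    apply real_psi h0 h1 hl (b := E0 p S0 Λ (b1 n x y z B u)) (r := E0 p S0 Λ (r1 n x y z B u))
    · exact E0_nonneg h0 h1 fun S _ => I1_nonneg _
    · rw [E0_open, ← E0_sub, ← E0_add]
      apply E0_mono h0 h1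
      intro S hS
      exact bb_open (hc.mono hS) n x y B
    · rw [E0_open, ← E0_sub, ← E0_sub]
      apply E0_mono h0 h1
      intro S hS
      exact rr_open (hc.mono hS) n x y B
    · linarith
  unfold Claim at ho hcl ⊢
  rw [E0_step p he (gg n x y z A B), E0_step p he (ll n z),
    E0_step p he (fun S => gg n x y z A B S * ll n z S)]
  apply real_step h0 h1 hl (W := E0 p S0 Λ (ww n x y z A B u))
    (wX := E0 p S0 Λ (wx n x y z B u)) (wY := E0 p S0 Λ (wx n y x z A u)) _ _ ho hcl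
    (hpsi x y B hB) (hpsi y x A hA)
  · rw [E0_open, ← E0_sub]
    apply E0_congr
    intro S hS
    exact gg_open_eq (hc.mono hS) n x y A B
  · rw [← E0_add]
    apply E0_mono h0 h1
    intro S _
    exact ww_le n x y A B

/-- The end of the exploration. -/
lemma terminal {p : ℝ} (h0 : 0 ≤ p) (h1 : p ≤ 1) {S0 Λ : Finset (Sym2 V)} {n : ℕ} {x y z : V}
    {A B : Finset V} (ht : ∀ c u, Cn S0 z c → s(c, u) ∈ Λ → Cn S0 z u) :
    Claim p S0 Λ n x y z A B := by
  have hsz : ∀ S ⊆ Λ, csz (S0 ∪ S) z = csz S0 z := by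
    intro S hS
    unfold csz
    congr 1
    ext w
    rw [mem_cl, mem_cl]
    constructor
    · intro h
      refine Cn_closed (S := S0 ∪ S) (A := {w | Cn S0 z w}) ?_ (Cn.refl S0 z) h
      intro a ha b hab
      rcases Finset.mem_union.1 hab with hab | hab
      · exact Cn.trans ha (Cn_of_mem hab)
      · exact ht a b ha (hS hab)
    · exact fun h => h.mono Finset.subset_union_left
  have hll : ∀ S ⊆ Λ, ll n z (S0 ∪ S) = ll n z S0 := by
    intro S hS
    unfold ll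
    rw [hsz S hS]
  have e1 : E0 p S0 Λ (ll n z) = ll n z S0 := by
    unfold E0
    rw [Ex_congr p (G := fun _ => ll n z S0) hll, Ex_const]
  have e2 : E0 p S0 Λ (fun S => gg n x y z A B S * ll n z S) =
      E0 p S0 Λ (gg n x y z A B) * ll n z S0 := by
    unfold E0
    rw [← Ex_mul_const]
    apply Ex_congr
    intro S hS
    simp only
    rw [hll S hS]
  have hpsi : ∀ (x y : V) (B : Finset V), 0 ≤ Psi p S0 Λ n x y z B := by
    intro x y B
    unfold Psi
    have a0 := E_ll_nonneg h0 h1 S0 Λ n z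
    have a1 := E_ll_le_one h0 h1 S0 Λ n z
    have a2 : 0 ≤ E0 p S0 Λ (bb n x y z B) := E0_nonneg h0 h1 fun S _ => I1_nonneg _
    have a3 : 0 ≤ E0 p S0 Λ (rr n x y z B) := E0_nonneg h0 h1 fun S _ => I1_nonneg _
    have a4 := mul_nonneg a2 (show (0 : ℝ) ≤ 5 - E0 p S0 Λ (ll n z) by linarith)
    have a5 := mul_nonneg a3 a0
    linarith
  unfold Claim
  rw [e2, e1]
  have := hpsi x y B
  have := hpsi y x A
  linarith

lemma b1_insert (n : ℕ) (x y z u : V) (B : Finset V) (S : Finset (Sym2 V)) :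
    b1 n x y z (insert u B) u S = 0 := by
  unfold b1
  apply I1_false
  rintro ⟨⟨_, _, h⟩, h'⟩
  exact h u (Finset.mem_insert_self _ _) h'

lemma r1_insert (n : ℕ) (x y z u : V) (B : Finset V) (S : Finset (Sym2 V)) :
    r1 n x y z (insert u B) u S = 0 := by
  unfold r1
  apply I1_false
  rintro ⟨⟨_, h⟩, h'⟩
  exact h u (Finset.mem_insert_self _ _) h'

theorem claim {p : ℝ} (h0 : 0 ≤ p) (h1 : p ≤ 1) (n : ℕ) (x y z : V) :
    ∀ (N : ℕ) (S0 Λ : Finset (Sym2 V)), Λ.card = N → ∀ A B : Finset V,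
      Claim p S0 Λ n x y z A B := by
  intro N
  induction N with
  | zero =>
    intro S0 Λ hΛ A B
    rw [Finset.card_eq_zero] at hΛ
    subst hΛ
    exact terminal h0 h1 (by intro c u _ h; simp at h)
  | succ N ih =>
    intro S0 Λ hΛ A B
    by_cases ht : ∀ c u, Cn S0 z c → s(c, u) ∈ Λ → Cn S0 z u
    · exact terminal h0 h1 ht
    · push Not at ht
      obtain ⟨c, u, hc, he, _⟩ := ht
      obtain ⟨Λ', he', rfl⟩ : ∃ Λ', s(c, u) ∉ Λ' ∧ insert s(c, u) Λ' = Λ :=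
        ⟨Λ.erase s(c, u), Finset.notMem_erase _ _, Finset.insert_erase he⟩
      have hcard : Λ'.card = N := by
        rw [Finset.card_insert_of_notMem he'] at hΛ
        omega
      have hz : ∀ (S0 Λ : Finset (Sym2 V)) (x y : V) (B : Finset V),
          E0 p S0 Λ (b1 n x y z (insert u B) u) ≤ E0 p S0 Λ (r1 n x y z (insert u B) u) / 4 := by
        intro S0 Λ x y B
        have a1 : E0 p S0 Λ (b1 n x y z (insert u B) u) = 0 := by
          unfold E0
          rw [← Ex_const p Λ (0 : ℝ)]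
          exact Ex_congr p fun S _ => b1_insert n x y z u B _
        have a2 : E0 p S0 Λ (r1 n x y z (insert u B) u) = 0 := by
          unfold E0
          rw [← Ex_const p Λ (0 : ℝ)]
          exact Ex_congr p fun S _ => r1_insert n x y z u B _
        rw [a1, a2]
        norm_num
      -- the claim with good `A`, any `B`
      have key : ∀ A B : Finset V, E0 p S0 (insert s(c, u) Λ') (b1 n y x z A u) ≤
          E0 p S0 (insert s(c, u) Λ') (r1 n y x z A u) / 4 →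
          Claim p S0 (insert s(c, u) Λ') n x y z A B := by
        intro A B hA
        by_cases hB : E0 p S0 (insert s(c, u) Λ') (b1 n x y z B u) ≤
          E0 p S0 (insert s(c, u) Λ') (r1 n x y z B u) / 4
        · exact step h0 h1 he' hc hB hA (ih _ _ hcard A B) (ih _ _ hcard A B)
        · apply stop_B h0 h1 (not_le.1 hB).le
          exact step h0 h1 he' hc (hz _ _ _ _ _) hA (ih _ _ hcard A _) (ih _ _ hcard A _)
      by_cases hA : E0 p S0 (insert s(c, u) Λ') (b1 n y x z A u) ≤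
          E0 p S0 (insert s(c, u) Λ') (r1 n y x z A u) / 4
      · exact key A B hA
      · apply Claim_symm
        apply stop_B h0 h1 (not_le.1 hA).le
        apply Claim_symm
        exact key _ B (hz _ _ _ _ _)

/-- **(TC)** the three-point inequality. -/
theorem tc (p : ℝ) (h0 : 0 ≤ p) (h1 : p ≤ 1) (Λ : Finset (Sym2 V)) (n : ℕ) (x y z : V) :
    Ex p Λ (DD n x y) * Ex p Λ (fun S => I1 (n ≤ csz S z)) ≤
      11 * Ex p Λ (fun S => DD n x y S * I1 (n ≤ csz S z)) := by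
  have h := claim h0 h1 n x y z Λ.card ∅ Λ rfl ∅ ∅
  unfold Claim Psi E0 at h
  simp only [Finset.empty_union] at h
  set l := Ex p Λ (fun S => ll n z S) with hl
  have hl' : Ex p Λ (fun S => I1 (n ≤ csz S z)) = l := rfl
  have hl0 : 0 ≤ l := Ex_nonneg h0 h1 fun S _ => ll_nonneg n z S
  have hl1 : l ≤ 1 := Ex_le_const h0 h1 fun S _ => ll_le_one n z S
  have hAv : ∀ (v : V) (S : Finset (Sym2 V)), Av (∅ : Finset V) v S := by
    intro v S a ha
    simp at ha
  set R := Ex p Λ (fun S => gg n x y z ∅ ∅ S) with hR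
  set RZ := Ex p Λ (fun S => gg n x y z ∅ ∅ S * ll n z S) with hRZ
  set Hb := Ex p Λ (fun S => bb n x y z ∅ S) with hHb
  set Ha := Ex p Λ (fun S => bb n y x z ∅ S) with hHa
  have e1 : Ex p Λ (fun S => rr n x y z ∅ S) = R := by
    rw [hR]
    apply Ex_congr
    intro S _
    unfold rr gg
    simp only [hAv, and_true]
  have e2 : Ex p Λ (fun S => rr n y x z ∅ S) = R := by
    rw [hR]
    apply Ex_congr
    intro S _
    unfold rr gg
    rw [RP_symm]
    simp only [hAv, and_true]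
  rw [e1, e2] at h
  have hHb0 : 0 ≤ Hb := Ex_nonneg h0 h1 fun S _ => I1_nonneg _
  have hHa0 : 0 ≤ Ha := Ex_nonneg h0 h1 fun S _ => I1_nonneg _
  have e3 : Ex p Λ (DD n x y) = R + Hb + Ha := by
    rw [hR, hHb, hHa, ← Ex_add, ← Ex_add]
    apply Ex_congr
    intro S _
    unfold DD gg bb
    by_cases hD : DP n x y S
    · have hD' : ¬ Cn S x y ∧ n ≤ csz S x ∧ n ≤ csz S y := hD
      rw [I1_true hD']
      by_cases hx : Cn S x z
      · have hy : ¬ Cn S y z := fun hy => hD.1 (hx.trans hy.symm)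
        rw [I1_false (P := RP n x y z S ∧ Av ∅ x S ∧ Av ∅ y S) (fun h => h.1.2.1 hx),
          I1_true ⟨hD, hx, hAv y S⟩, I1_false (fun h => hy h.2.1)]
        norm_num
      · by_cases hy : Cn S y z
        · rw [I1_false (P := RP n x y z S ∧ Av ∅ x S ∧ Av ∅ y S) (fun h => h.1.2.2 hy),
            I1_false (P := DP n x y S ∧ Cn S x z ∧ Av ∅ y S) (fun h => hx h.2.1),
            I1_true ⟨DP_symm.1 hD, hy, hAv x S⟩]
          norm_num
        · rw [I1_true (P := RP n x y z S ∧ Av ∅ x S ∧ Av ∅ y S)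
            ⟨⟨hD, hx, hy⟩, hAv x S, hAv y S⟩,
            I1_false (P := DP n x y S ∧ Cn S x z ∧ Av ∅ y S) (fun h => hx h.2.1),
            I1_false (fun h => hy h.2.1)]
          norm_num
    · rw [I1_false (P := ¬ Cn S x y ∧ n ≤ csz S x ∧ n ≤ csz S y) hD,
        I1_false (P := RP n x y z S ∧ Av ∅ x S ∧ Av ∅ y S) (fun h => hD h.1.1),
        I1_false (P := DP n x y S ∧ Cn S x z ∧ Av ∅ y S) (fun h => hD h.1),
        I1_false (fun h => hD (DP_symm.1 h.1))]
      norm_num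
  have e4 : RZ + Hb + Ha ≤ Ex p Λ (fun S => DD n x y S * I1 (n ≤ csz S z)) := by
    rw [hRZ, hHb, hHa, ← Ex_add, ← Ex_add]
    apply Ex_mono h0 h1
    intro S _
    unfold DD gg bb ll
    by_cases hD : DP n x y S
    · have hD' : ¬ Cn S x y ∧ n ≤ csz S x ∧ n ≤ csz S y := hD
      rw [I1_true hD']
      by_cases hx : Cn S x z
      · have hy : ¬ Cn S y z := fun hy => hD.1 (hx.trans hy.symm)
        have hz : n ≤ csz S z := by rw [← csz_eq hx]; exact hD.2.1
        rw [I1_false (P := RP n x y z S ∧ Av ∅ x S ∧ Av ∅ y S) (fun h => h.1.2.1 hx),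
          I1_true (P := DP n x y S ∧ Cn S x z ∧ Av ∅ y S) ⟨hD, hx, hAv y S⟩,
          I1_false (P := DP n y x S ∧ Cn S y z ∧ Av ∅ x S) (fun h => hy h.2.1), I1_true hz]
        norm_num
      · by_cases hy : Cn S y z
        · have hz : n ≤ csz S z := by rw [← csz_eq hy]; exact hD.2.2
          rw [I1_false (P := RP n x y z S ∧ Av ∅ x S ∧ Av ∅ y S) (fun h => h.1.2.2 hy),
            I1_false (P := DP n x y S ∧ Cn S x z ∧ Av ∅ y S) (fun h => hx h.2.1),
            I1_true (P := DP n y x S ∧ Cn S y z ∧ Av ∅ x S) ⟨DP_symm.1 hD, hy, hAv x S⟩,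
            I1_true hz]
          norm_num
        · rw [I1_true (P := RP n x y z S ∧ Av ∅ x S ∧ Av ∅ y S)
            ⟨⟨hD, hx, hy⟩, hAv x S, hAv y S⟩,
            I1_false (P := DP n x y S ∧ Cn S x z ∧ Av ∅ y S) (fun h => hx h.2.1),
            I1_false (P := DP n y x S ∧ Cn S y z ∧ Av ∅ x S) (fun h => hy h.2.1), one_mul]
          linarith [I1_nonneg (n ≤ csz S z)]
    · rw [I1_false (P := ¬ Cn S x y ∧ n ≤ csz S x ∧ n ≤ csz S y) hD,
        I1_false (P := RP n x y z S ∧ Av ∅ x S ∧ Av ∅ y S) (fun h => hD h.1.1),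
        I1_false (P := DP n x y S ∧ Cn S x z ∧ Av ∅ y S) (fun h => hD h.1),
        I1_false (P := DP n y x S ∧ Cn S y z ∧ Av ∅ x S) (fun h => hD (DP_symm.1 h.1))]
      norm_num
  rw [hl', e3]
  have hRZ0 : 0 ≤ RZ := Ex_nonneg h0 h1 fun S _ => mul_nonneg (I1_nonneg _) (I1_nonneg _)
  nlinarith

end Vale.Agent.P151.TC.H614
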